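import Mathlib

/-!
# P060: pairing two lists of vertices of a graph of bounded degree without complete joins

Given injective lists `x y : Fin m → V` in a graph `H` of maximum degree `D`, with
`6 * D * (√D + 1) < m`, there is a permutation `f` such that no `x i` is `H`-adjacent to
`y (f i)` and no two pairs `{x i, y (f i)}`, `{x l, y (f l)}` are completely joined in `H`.
-/

namespace Vale.Agent.P060

open Finset

variable {V : Type*} [Fintype V] [DecidableEq V] (H : SimpleGraph V) [DecidableRel H.Adj]

/-- Few vertices share more than `√D` neighbours with a given one. -/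
theorem card_large_codeg {D : ℕ} (hD : ∀ v, (H.neighborFinset v).card ≤ D) (a : V) :
    (univ.filter fun b => Nat.sqrt D < (H.neighborFinset a ∩ H.neighborFinset b).card).card
      ≤ D * (Nat.sqrt D + 1) := by
  set K := Nat.sqrt D with hK
  set S := univ.filter fun b => K < (H.neighborFinset a ∩ H.neighborFinset b).card with hS
  have h1 : (K + 1) * S.card ≤ ∑ b ∈ S, (H.neighborFinset a ∩ H.neighborFinset b).card := by
    rw [mul_comm, ← smul_eq_mul]
    exact card_nsmul_le_sum _ _ _ (fun b hb => (mem_filter.1 hb).2)
  have h2 : ∑ b ∈ S, (H.neighborFinset a ∩ H.neighborFinset b).card ≤ D * D := by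
    calc ∑ b ∈ S, (H.neighborFinset a ∩ H.neighborFinset b).card
        ≤ ∑ b, ∑ w ∈ H.neighborFinset a, (if H.Adj w b then 1 else 0) := by
          refine le_of_le_of_eq (sum_le_sum_of_subset (subset_univ _)) (sum_congr rfl fun b _ => ?_)
          rw [sum_boole]
          simp only [Nat.cast_id]
          congr 1
          ext w
          simp [SimpleGraph.adj_comm]
      _ = ∑ w ∈ H.neighborFinset a, ∑ b, (if H.Adj w b then 1 else 0) := sum_comm
      _ ≤ ∑ w ∈ H.neighborFinset a, D := by
          refine sum_le_sum fun w _ => ?_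
          rw [sum_boole]
          refine le_of_eq_of_le ?_ (hD w)
          simp only [Nat.cast_id]
          congr 1
          ext b
          simp
      _ ≤ D * D := by
          rw [sum_const, smul_eq_mul]
          exact Nat.mul_le_mul_right _ (hD a)
  have h3 : D < (K + 1) * (K + 1) := Nat.lt_succ_sqrt D
  have h4 : (K + 1) * S.card ≤ (K + 1) * (D * (K + 1)) :=
    calc (K + 1) * S.card ≤ D * D := h1.trans h2
      _ ≤ D * ((K + 1) * (K + 1)) := Nat.mul_le_mul_left _ h3.le
      _ = (K + 1) * (D * (K + 1)) := by ring
  exact Nat.le_of_mul_le_mul_left h4 (Nat.succ_pos _)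

variable {m : ℕ} (x y : Fin m → V)

/-- `b` may not be paired with `a`, given the pairs `{x l, y (f l)}`, `l ∈ s`. -/
def Forb (D : ℕ) (s : Finset (Fin m)) (f : Fin m → Fin m) (a b : V) : Prop :=
  H.Adj a b ∨ Nat.sqrt D < (H.neighborFinset a ∩ H.neighborFinset b).card ∨
    ∃ l ∈ s, H.Adj a (x l) ∧ H.Adj a (y (f l)) ∧ H.Adj b (x l) ∧ H.Adj b (y (f l))

omit [DecidableEq V] in
theorem Forb_comm [DecidableEq V] (D : ℕ) (s : Finset (Fin m)) (f : Fin m → Fin m) (a b : V) :
    Forb H x y D s f a b ↔ Forb H x y D s f b a := by
  unfold Forb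
  rw [SimpleGraph.adj_comm, inter_comm]
  constructor <;> (rintro (h | h | ⟨l, hl, h1, h2, h3, h4⟩))
  · exact Or.inl h
  · exact Or.inr (Or.inl h)
  · exact Or.inr (Or.inr ⟨l, hl, h3, h4, h1, h2⟩)
  · exact Or.inl h
  · exact Or.inr (Or.inl h)
  · exact Or.inr (Or.inr ⟨l, hl, h3, h4, h1, h2⟩)

open scoped Classical in
theorem card_forb {D : ℕ} (hD : ∀ v, (H.neighborFinset v).card ≤ D) (hx : Function.Injective x)
    (s : Finset (Fin m)) (f : Fin m → Fin m)
    (hs : ∀ l ∈ s, (H.neighborFinset (x l) ∩ H.neighborFinset (y (f l))).card ≤ Nat.sqrt D)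
    (a : V) : (univ.filter fun b => Forb H x y D s f a b).card ≤ 2 * D * (Nat.sqrt D + 1) := by
  set L := s.filter fun l => H.Adj a (x l) with hL
  have hLc : L.card ≤ D :=
    (card_le_card_of_injOn x (fun l hl => by
      simpa using (mem_filter.1 hl).2) hx.injOn).trans (hD a)
  have hsub : (univ.filter fun b => Forb H x y D s f a b) ⊆
      H.neighborFinset a ∪
        (univ.filter fun b => Nat.sqrt D < (H.neighborFinset a ∩ H.neighborFinset b).card) ∪
        L.biUnion (fun l => H.neighborFinset (x l) ∩ H.neighborFinset (y (f l))) := by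
    intro b hb
    simp only [mem_union, mem_biUnion, mem_filter, mem_univ, true_and, mem_inter,
      SimpleGraph.mem_neighborFinset, hL]
    rcases (mem_filter.1 hb).2 with h | h | ⟨l, hl, h1, h2, h3, h4⟩
    · exact Or.inl (Or.inl h)
    · exact Or.inl (Or.inr h)
    · exact Or.inr ⟨l, ⟨hl, h1⟩, h3.symm, h4.symm⟩
  have h3 : (L.biUnion fun l => H.neighborFinset (x l) ∩ H.neighborFinset (y (f l))).card
      ≤ D * Nat.sqrt D :=
    (card_biUnion_le_card_mul _ _ _ (fun l hl => hs l (mem_filter.1 hl).1)).trans
      (Nat.mul_le_mul_right _ hLc)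
  have h1 := hD a
  have h2 := card_large_codeg H hD a
  refine (card_le_card hsub).trans ((card_union_le _ _).trans ?_)
  refine (Nat.add_le_add (card_union_le _ _) le_rfl).trans ?_
  calc _ ≤ D + D * (Nat.sqrt D + 1) + D * Nat.sqrt D := by gcongr
    _ = 2 * D * (Nat.sqrt D + 1) := by ring

/-- A partial pairing on `s`: no pair is forbidden, and no two pairs are completely joined. -/
def Good (D : ℕ) (s : Finset (Fin m)) (f : Fin m → Fin m) : Prop :=
  Set.InjOn f s ∧
  (∀ i ∈ s, ¬ H.Adj (x i) (y (f i))) ∧
  (∀ i ∈ s, (H.neighborFinset (x i) ∩ H.neighborFinset (y (f i))).card ≤ Nat.sqrt D) ∧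
  ∀ i ∈ s, ∀ l ∈ s, i ≠ l →
    ¬ (H.Adj (x i) (x l) ∧ H.Adj (x i) (y (f l)) ∧ H.Adj (y (f i)) (x l) ∧
      H.Adj (y (f i)) (y (f l)))

theorem exists_good {D : ℕ} (hD : ∀ v, (H.neighborFinset v).card ≤ D)
    (hx : Function.Injective x) (hy : Function.Injective y)
    (hm : 6 * D * (Nat.sqrt D + 1) < m) (s : Finset (Fin m)) :
    ∃ f, Good H x y D s f := by
  classical
  induction s using Finset.induction_on with
  | empty => exact ⟨id, by simp [Good]⟩
  | @insert i s hi ih =>
    obtain ⟨f, finj, fad, fco, fbad⟩ := ih
    set F := 2 * D * (Nat.sqrt D + 1) with hF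
    have hF3 : 3 * F < m := by rw [hF]; linarith
    have hforb : ∀ a, (univ.filter fun j => Forb H x y D s f a (y j)).card ≤ F := fun a =>
      (card_le_card_of_injOn y (fun j hj => by simpa using hj) hy.injOn).trans
        (card_forb H x y hD hx s f fco a)
    have hforb' : ∀ b, (univ.filter fun l => Forb H x y D s f (x l) b).card ≤ F := fun b =>
      (card_le_card_of_injOn x (fun l hl => by
        simpa [Forb_comm H x y D s f b] using hl) hx.injOn).trans
        (card_forb H x y hD hx s f fco b)
    set free := univ \ s.image f with hfree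
    have hfc : free.card = m - s.card := by
      rw [hfree, card_univ_sdiff, card_image_of_injOn finj, Fintype.card_fin]
    by_cases hex : ∃ j ∈ free, ¬ Forb H x y D s f (x i) (y j)
    · obtain ⟨j, hj, hjF⟩ := hex
      have hjs : ∀ l ∈ s, f l ≠ j := by
        intro l hl hlj
        simp only [hfree, mem_sdiff, mem_image] at hj
        exact hj.2 ⟨l, hl, hlj⟩
      simp only [Forb, not_or, not_exists, not_and, not_lt] at hjF
      obtain ⟨j1, j2, j3⟩ := hjF
      refine ⟨Function.update f i j, ?_, ?_, ?_, ?_⟩
      · intro a ha b hb hab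
        simp only [coe_insert, Set.mem_insert_iff, mem_coe] at ha hb
        rcases ha with rfl | ha <;> rcases hb with rfl | hb
        · rfl
        · rw [Function.update_self, Function.update_of_ne (by grind)] at hab
          exact absurd hab.symm (hjs b hb)
        · rw [Function.update_self, Function.update_of_ne (by grind)] at hab
          exact absurd hab (hjs a ha)
        · rw [Function.update_of_ne (by grind), Function.update_of_ne (by grind)] at hab
          exact finj ha hb hab
      · grind
      · grind
      · intro a ha b hb hab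
        rintro ⟨h1, h2, h3, h4⟩
        have ga : ∀ c ∈ s, Function.update f i j c = f c := fun c hc =>
          Function.update_of_ne (show c ≠ i from fun h => hi (h ▸ hc)) _ _
        have gs : Function.update f i j i = j := Function.update_self ..
        rcases mem_insert.1 ha with ea | ha <;> rcases mem_insert.1 hb with eb | hb
        · exact hab (ea.trans eb.symm)
        · rw [ea, gs] at h3 h4
          rw [ga b hb] at h2 h4
          rw [ea] at h1 h2
          exact j3 b hb h1 h2 h3 h4
        · rw [eb, gs] at h2 h4
          rw [ga a ha] at h3 h4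
          rw [eb] at h1 h3
          exact j3 a ha h1.symm h3.symm h2.symm h4.symm
        · rw [ga a ha] at h3 h4
          rw [ga b hb] at h2 h4
          exact fbad a ha b hb hab ⟨h1, h2, h3, h4⟩
    · push Not at hex
      have hfle : free.card ≤ F :=
        (card_le_card (fun j hj => mem_filter.2 ⟨mem_univ j, hex j hj⟩)).trans (hforb (x i))
      have hsm : s.card < m := by
        have := card_le_univ (insert i s)
        rw [card_insert_of_notMem hi, Fintype.card_fin] at this
        omega
      obtain ⟨j, hj⟩ := card_pos.1 (show 0 < free.card by omega)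
      have hjs : ∀ l ∈ s, f l ≠ j := by
        intro l hl hlj
        simp only [hfree, mem_sdiff, mem_image] at hj
        exact hj.2 ⟨l, hl, hlj⟩
      obtain ⟨l, hl, hl1, hl2⟩ :
          ∃ l ∈ s, ¬ Forb H x y D s f (x i) (y (f l)) ∧ ¬ Forb H x y D s f (x l) (y j) := by
        by_contra hcon
        push Not at hcon
        have hsub : s ⊆ (s.filter fun l => Forb H x y D s f (x i) (y (f l))) ∪
            (univ.filter fun l => Forb H x y D s f (x l) (y j)) := by
          intro l hl
          by_cases hh : Forb H x y D s f (x i) (y (f l))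
          · exact mem_union_left _ (mem_filter.2 ⟨hl, hh⟩)
          · exact mem_union_right _ (mem_filter.2 ⟨mem_univ _, hcon l hl hh⟩)
        have h1 : (s.filter fun l => Forb H x y D s f (x i) (y (f l))).card ≤ F :=
          (card_le_card_of_injOn f (fun l hl => by
            simpa using (mem_filter.1 hl).2)
            (finj.mono (fun l hl => (mem_filter.1 hl).1))).trans (hforb (x i))
        have := (card_le_card hsub).trans (card_union_le _ _)
        have := hforb' (y j)
        omega
      simp only [Forb, not_or, not_exists, not_and, not_lt] at hl1 hl2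
      obtain ⟨a1, a2, a3⟩ := hl1
      obtain ⟨b1, b2, b3⟩ := hl2
      have hil : i ≠ l := fun h => hi (h ▸ hl)
      set g := Function.update (Function.update f i (f l)) l j with hg
      have gi : g i = f l := by simp [hg, hil]
      have gl : g l = j := by simp [hg]
      have go : ∀ a ∈ s, a ≠ l → g a = f a := by
        intro a ha hal
        simp [hg, hal, show a ≠ i from fun h => hi (h ▸ ha)]
      have cases3 : ∀ a ∈ insert i s, a = i ∨ a = l ∨ (a ∈ s ∧ a ≠ l) := by grind
      refine ⟨g, ?_, ?_, ?_, ?_⟩
      · intro a ha b hb hab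
        rcases cases3 a ha with ea | ea | ⟨ha, hal⟩ <;>
          rcases cases3 b hb with eb | eb | ⟨hb, hbl⟩
        · exact ea.trans eb.symm
        · rw [ea, eb, gi, gl] at hab; exact absurd hab (hjs l hl)
        · rw [ea, gi, go b hb hbl] at hab; exact absurd (finj hl hb hab).symm hbl
        · rw [ea, eb, gi, gl] at hab; exact absurd hab.symm (hjs l hl)
        · exact ea.trans eb.symm
        · rw [ea, gl, go b hb hbl] at hab; exact absurd hab.symm (hjs b hb)
        · rw [eb, gi, go a ha hal] at hab; exact absurd (finj ha hl hab) hal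
        · rw [eb, gl, go a ha hal] at hab; exact absurd hab (hjs a ha)
        · rw [go a ha hal, go b hb hbl] at hab; exact finj ha hb hab
      · intro a ha
        rcases cases3 a ha with ea | ea | ⟨ha, hal⟩
        · rw [ea, gi]; exact a1
        · rw [ea, gl]; exact b1
        · rw [go a ha hal]; exact fad a ha
      · intro a ha
        rcases cases3 a ha with ea | ea | ⟨ha, hal⟩
        · rw [ea, gi]; exact a2
        · rw [ea, gl]; exact b2
        · rw [go a ha hal]; exact fco a ha
      · intro a ha b hb hab
        rintro ⟨h1, h2, h3, h4⟩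
        rcases cases3 a ha with ea | ea | ⟨ha, hal⟩ <;>
          rcases cases3 b hb with eb | eb | ⟨hb, hbl⟩
        · exact hab (ea.trans eb.symm)
        · rw [ea, eb, gi] at h3
          exact fad l hl h3.symm
        · rw [ea, gi, go b hb hbl] at h4
          rw [ea] at h1 h2; rw [ea, gi] at h3; rw [go b hb hbl] at h2
          exact a3 b hb h1 h2 h3 h4
        · rw [ea, eb, gi] at h2
          exact fad l hl h2
        · exact hab (ea.trans eb.symm)
        · rw [ea, gl, go b hb hbl] at h4
          rw [ea] at h1 h2; rw [ea, gl] at h3; rw [go b hb hbl] at h2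
          exact b3 b hb h1 h2 h3 h4
        · rw [eb, gi, go a ha hal] at h4
          rw [eb] at h1 h3; rw [eb, gi] at h2; rw [go a ha hal] at h3
          exact a3 a ha h1.symm h3.symm h2.symm h4.symm
        · rw [eb, gl, go a ha hal] at h4
          rw [eb] at h1 h3; rw [eb, gl] at h2; rw [go a ha hal] at h3
          exact b3 a ha h1.symm h3.symm h2.symm h4.symm
        · rw [go a ha hal] at h3 h4; rw [go b hb hbl] at h2 h4
          exact fbad a ha b hb hab ⟨h1, h2, h3, h4⟩

end Vale.Agent.P060
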