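import Vale.Agent.P060.Pairing

/-!
# P060: pairing in a graph of maximum degree `D` with `D ^ 4` small against `m ^ 3`

Pairs are inserted one at a time; the partner is chosen so that an exponential potential, which
controls for each vertex `a` the number of pairs inside `N(a)`, does not increase.
-/

namespace Vale.Agent.P060

open Finset

variable {V : Type*} [Fintype V] [DecidableEq V] (H : SimpleGraph V) [DecidableRel H.Adj]

theorem card_codeg_mul_le {D : ℕ} (hD : ∀ v, (H.neighborFinset v).card ≤ D) (τ : ℕ) (a : V) :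
    (τ + 1) * (univ.filter fun b =>
      τ < (H.neighborFinset a ∩ H.neighborFinset b).card).card ≤ D * D := by
  set S := univ.filter fun b => τ < (H.neighborFinset a ∩ H.neighborFinset b).card
  calc (τ + 1) * S.card ≤ ∑ b ∈ S, (H.neighborFinset a ∩ H.neighborFinset b).card := by
        rw [mul_comm, ← smul_eq_mul]
        exact card_nsmul_le_sum _ _ _ (fun b hb => (mem_filter.1 hb).2)
    _ ≤ ∑ b, (H.neighborFinset a ∩ H.neighborFinset b).card :=
        sum_le_sum_of_subset (subset_univ _)
    _ = ∑ w ∈ H.neighborFinset a, (H.neighborFinset w).card := by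
        simp only [card_eq_sum_ones (H.neighborFinset _), ← sum_filter, inter_comm]
        simp only [card_eq_sum_ones, sum_filter]
        rw [sum_comm' (t' := H.neighborFinset a) (s' := fun w => H.neighborFinset w)]
        intro b w
        simp [SimpleGraph.adj_comm, and_comm]
    _ ≤ (H.neighborFinset a).card * D := by
        rw [← smul_eq_mul]; exact sum_le_card_nsmul _ _ _ fun w _ => hD w
    _ ≤ D * D := Nat.mul_le_mul_right _ (hD a)

variable {m : ℕ} (x y : Fin m → V)

/-- `b` may not be paired with `a`, given the pairs `{x l, y (f l)}`, `l ∈ s`. -/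
def Forb2 (τ : ℕ) (s : Finset (Fin m)) (f : Fin m → Fin m) (a b : V) : Prop :=
  H.Adj a b ∨ τ < (H.neighborFinset a ∩ H.neighborFinset b).card ∨
    ∃ l ∈ s, H.Adj a (x l) ∧ H.Adj a (y (f l)) ∧ H.Adj b (x l) ∧ H.Adj b (y (f l))

omit [DecidableEq V] in
theorem Forb2_comm [DecidableEq V] (τ : ℕ) (s : Finset (Fin m)) (f : Fin m → Fin m) (a b : V) :
    Forb2 H x y τ s f a b ↔ Forb2 H x y τ s f b a := by
  unfold Forb2
  rw [SimpleGraph.adj_comm, inter_comm]
  constructor <;> (rintro (h | h | ⟨l, hl, h1, h2, h3, h4⟩))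
  · exact Or.inl h
  · exact Or.inr (Or.inl h)
  · exact Or.inr (Or.inr ⟨l, hl, h3, h4, h1, h2⟩)
  · exact Or.inl h
  · exact Or.inr (Or.inl h)
  · exact Or.inr (Or.inr ⟨l, hl, h3, h4, h1, h2⟩)

/-- The number of pairs inside the neighbourhood of `a`. -/
def pairsIn (s : Finset (Fin m)) (f : Fin m → Fin m) (a : V) : ℕ :=
  (s.filter fun l => H.Adj a (x l) ∧ H.Adj a (y (f l))).card

/-- The number of neighbours of `a` among the first endpoints still to be inserted and the
free second endpoints. -/
def remIn (s : Finset (Fin m)) (f : Fin m → Fin m) (a : V) : ℕ :=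
  (sᶜ.filter fun i => H.Adj a (x i)).card + ((s.image f)ᶜ.filter fun j => H.Adj a (y j)).card

open scoped Classical in
theorem card_forb2 {D τ K : ℕ} (hD : ∀ v, (H.neighborFinset v).card ≤ D)
    (s : Finset (Fin m)) (f : Fin m → Fin m)
    (hs : ∀ l ∈ s, (H.neighborFinset (x l) ∩ H.neighborFinset (y (f l))).card ≤ τ)
    (a : V) (ha : pairsIn H x y s f a ≤ K) :
    (univ.filter fun b => Forb2 H x y τ s f a b).card ≤
      D + (univ.filter fun b => τ < (H.neighborFinset a ∩ H.neighborFinset b).card).card
        + K * τ := by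
  set L := s.filter fun l => H.Adj a (x l) ∧ H.Adj a (y (f l)) with hL
  have hsub : (univ.filter fun b => Forb2 H x y τ s f a b) ⊆
      H.neighborFinset a ∪
        (univ.filter fun b => τ < (H.neighborFinset a ∩ H.neighborFinset b).card) ∪
        L.biUnion (fun l => H.neighborFinset (x l) ∩ H.neighborFinset (y (f l))) := by
    intro b hb
    simp only [mem_union, mem_biUnion, mem_filter, mem_univ, true_and, mem_inter,
      SimpleGraph.mem_neighborFinset, hL]
    rcases (mem_filter.1 hb).2 with h | h | ⟨l, hl, h1, h2, h3, h4⟩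
    · exact Or.inl (Or.inl h)
    · exact Or.inl (Or.inr h)
    · exact Or.inr ⟨l, ⟨hl, h1, h2⟩, h3.symm, h4.symm⟩
  refine (card_le_card hsub).trans ((card_union_le _ _).trans (Nat.add_le_add
    ((card_union_le _ _).trans (Nat.add_le_add_right (hD a) _)) ?_))
  exact (card_biUnion_le_card_mul _ _ _ (fun l hl => hs l (mem_filter.1 hl).1)).trans
    (Nat.mul_le_mul_right _ ha)

/-- A partial pairing on `s`: no pair is forbidden, and no two pairs are completely joined. -/
def Good2 (τ : ℕ) (s : Finset (Fin m)) (f : Fin m → Fin m) : Prop :=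
  Set.InjOn f s ∧
  (∀ i ∈ s, ¬ H.Adj (x i) (y (f i))) ∧
  (∀ i ∈ s, (H.neighborFinset (x i) ∩ H.neighborFinset (y (f i))).card ≤ τ) ∧
  ∀ i ∈ s, ∀ l ∈ s, i ≠ l →
    ¬ (H.Adj (x i) (x l) ∧ H.Adj (x i) (y (f l)) ∧ H.Adj (y (f i)) (x l) ∧
      H.Adj (y (f i)) (y (f l)))

theorem good2_direct {τ : ℕ} {s : Finset (Fin m)} {f : Fin m → Fin m} {i j : Fin m}
    (hi : i ∉ s) (hg : Good2 H x y τ s f) (hj : ∀ l ∈ s, f l ≠ j)
    (h : ¬ Forb2 H x y τ s f (x i) (y j)) :
    Good2 H x y τ (insert i s) (Function.update f i j) := by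
  obtain ⟨finj, fad, fco, fbad⟩ := hg
  simp only [Forb2, not_or, not_exists, not_and, not_lt] at h
  obtain ⟨j1, j2, j3⟩ := h
  refine ⟨?_, ?_, ?_, ?_⟩
  · intro a ha b hb hab
    simp only [coe_insert, Set.mem_insert_iff, mem_coe] at ha hb
    rcases ha with rfl | ha <;> rcases hb with rfl | hb
    · rfl
    · rw [Function.update_self, Function.update_of_ne (by grind)] at hab
      exact absurd hab.symm (hj b hb)
    · rw [Function.update_self, Function.update_of_ne (by grind)] at hab
      exact absurd hab (hj a ha)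
    · rw [Function.update_of_ne (by grind), Function.update_of_ne (by grind)] at hab
      exact finj ha hb hab
  · grind
  · grind
  · intro a ha b hb hab
    rintro ⟨h1, h2, h3, h4⟩
    have ga : ∀ c ∈ s, Function.update f i j c = f c := fun c hc =>
      Function.update_of_ne (show c ≠ i from fun h => hi (h ▸ hc)) _ _
    have gs : Function.update f i j i = j := Function.update_self ..
    rcases mem_insert.1 ha with ea | ha <;> rcases mem_insert.1 hb with eb | hb
    · exact hab (ea.trans eb.symm)
    · rw [ea, gs] at h3 h4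
      rw [ga b hb] at h2 h4
      rw [ea] at h1 h2
      exact j3 b hb h1 h2 h3 h4
    · rw [eb, gs] at h2 h4
      rw [ga a ha] at h3 h4
      rw [eb] at h1 h3
      exact j3 a ha h1.symm h3.symm h2.symm h4.symm
    · rw [ga a ha] at h3 h4
      rw [ga b hb] at h2 h4
      exact fbad a ha b hb hab ⟨h1, h2, h3, h4⟩

theorem good2_switch {τ : ℕ} {s : Finset (Fin m)} {f : Fin m → Fin m} {i l j : Fin m}
    (hi : i ∉ s) (hl : l ∈ s) (hg : Good2 H x y τ s f) (hj : ∀ a ∈ s, f a ≠ j)
    (h1 : ¬ Forb2 H x y τ s f (x i) (y (f l))) (h2 : ¬ Forb2 H x y τ s f (x l) (y j)) :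
    Good2 H x y τ (insert i s) (Function.update (Function.update f i (f l)) l j) := by
  obtain ⟨finj, fad, fco, fbad⟩ := hg
  simp only [Forb2, not_or, not_exists, not_and, not_lt] at h1 h2
  obtain ⟨a1, a2, a3⟩ := h1
  obtain ⟨b1, b2, b3⟩ := h2
  have hil : i ≠ l := fun h => hi (h ▸ hl)
  set g := Function.update (Function.update f i (f l)) l j with hg
  have gi : g i = f l := by simp [hg, hil]
  have gl : g l = j := by simp [hg]
  have go : ∀ a ∈ s, a ≠ l → g a = f a := by
    intro a ha hal
    simp [hg, hal, show a ≠ i from fun h => hi (h ▸ ha)]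
  have cases3 : ∀ a ∈ insert i s, a = i ∨ a = l ∨ (a ∈ s ∧ a ≠ l) := by grind
  refine ⟨?_, ?_, ?_, ?_⟩
  · intro a ha b hb hab
    rcases cases3 a ha with ea | ea | ⟨ha, hal⟩ <;>
      rcases cases3 b hb with eb | eb | ⟨hb, hbl⟩
    · exact ea.trans eb.symm
    · rw [ea, eb, gi, gl] at hab; exact absurd hab (hj l hl)
    · rw [ea, gi, go b hb hbl] at hab; exact absurd (finj hl hb hab).symm hbl
    · rw [ea, eb, gi, gl] at hab; exact absurd hab.symm (hj l hl)
    · exact ea.trans eb.symm
    · rw [ea, gl, go b hb hbl] at hab; exact absurd hab.symm (hj b hb)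
    · rw [eb, gi, go a ha hal] at hab; exact absurd (finj ha hl hab) hal
    · rw [eb, gl, go a ha hal] at hab; exact absurd hab (hj a ha)
    · rw [go a ha hal, go b hb hbl] at hab; exact finj ha hb hab
  · intro a ha
    rcases cases3 a ha with ea | ea | ⟨ha, hal⟩
    · rw [ea, gi]; exact a1
    · rw [ea, gl]; exact b1
    · rw [go a ha hal]; exact fad a ha
  · intro a ha
    rcases cases3 a ha with ea | ea | ⟨ha, hal⟩
    · rw [ea, gi]; exact a2
    · rw [ea, gl]; exact b2
    · rw [go a ha hal]; exact fco a ha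
  · intro a ha b hb hab
    rintro ⟨h1, h2, h3, h4⟩
    rcases cases3 a ha with ea | ea | ⟨ha, hal⟩ <;>
      rcases cases3 b hb with eb | eb | ⟨hb, hbl⟩
    · exact hab (ea.trans eb.symm)
    · rw [ea, eb, gi] at h3
      exact fad l hl h3.symm
    · rw [ea, gi, go b hb hbl] at h4
      rw [ea] at h1 h2; rw [ea, gi] at h3; rw [go b hb hbl] at h2
      exact a3 b hb h1 h2 h3 h4
    · rw [ea, eb, gi] at h2
      exact fad l hl h2
    · exact hab (ea.trans eb.symm)
    · rw [ea, gl, go b hb hbl] at h4
      rw [ea] at h1 h2; rw [ea, gl] at h3; rw [go b hb hbl] at h2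
      exact b3 b hb h1 h2 h3 h4
    · rw [eb, gi, go a ha hal] at h4
      rw [eb] at h1 h3; rw [eb, gi] at h2; rw [go a ha hal] at h3
      exact a3 a ha h1.symm h3.symm h2.symm h4.symm
    · rw [eb, gl, go a ha hal] at h4
      rw [eb] at h1 h3; rw [eb, gl] at h2; rw [go a ha hal] at h3
      exact b3 a ha h1.symm h3.symm h2.symm h4.symm
    · rw [go a ha hal] at h3 h4; rw [go b hb hbl] at h2 h4
      exact fbad a ha b hb hab ⟨h1, h2, h3, h4⟩

/-- The potential. -/
noncomputable def pot (N : ℕ) (s : Finset (Fin m)) (f : Fin m → Fin m) : ℝ :=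
  ∑ a ∈ univ.image x ∪ univ.image y,
    (2 : ℝ) ^ pairsIn H x y s f a * (1 + 1 / (N : ℝ)) ^ remIn H x y s f a

theorem pairsIn_direct {s : Finset (Fin m)} {f : Fin m → Fin m} {i j : Fin m} (hi : i ∉ s)
    (a : V) : pairsIn H x y (insert i s) (Function.update f i j) a
      = pairsIn H x y s f a + if H.Adj a (x i) ∧ H.Adj a (y j) then 1 else 0 := by
  have h : (s.filter fun l => H.Adj a (x l) ∧ H.Adj a (y (Function.update f i j l)))
      = s.filter fun l => H.Adj a (x l) ∧ H.Adj a (y (f l)) :=
    filter_congr fun l hl => by rw [Function.update_of_ne (ne_of_mem_of_not_mem hl hi)]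
  unfold pairsIn
  rw [filter_insert, Function.update_self, h]
  split_ifs
  · rw [card_insert_of_notMem (by simp [hi])]
  · rfl

theorem pairsIn_switch {s : Finset (Fin m)} {f : Fin m → Fin m} {i l j : Fin m} (hi : i ∉ s)
    (hl : l ∈ s) (a : V) :
    pairsIn H x y (insert i s) (Function.update (Function.update f i (f l)) l j) a
      ≤ pairsIn H x y s f a + (if H.Adj a (x i) ∧ H.Adj a (y (f l)) then 1 else 0)
        + (if H.Adj a (x l) ∧ H.Adj a (y j) then 1 else 0) := by
  classical
  have hil : i ≠ l := fun h => hi (h ▸ hl)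
  set g := Function.update (Function.update f i (f l)) l j with hg
  have hsub : ((insert i s).filter fun b => H.Adj a (x b) ∧ H.Adj a (y (g b))) ⊆
      (s.filter fun b => H.Adj a (x b) ∧ H.Adj a (y (f b)))
        ∪ (if H.Adj a (x i) ∧ H.Adj a (y (f l)) then {i} else ∅)
        ∪ (if H.Adj a (x l) ∧ H.Adj a (y j) then {l} else ∅) := by
    intro b hb
    obtain ⟨hb, h1, h2⟩ := mem_filter.1 hb
    by_cases hbl : b = l
    · rw [hbl] at h1 h2
      have hgl : g l = j := by simp [hg]
      rw [hgl] at h2
      simp [hbl, h1, h2]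
    · by_cases hbi : b = i
      · rw [hbi] at h1 h2
        have hgi : g i = f l := by simp [hg, hil]
        rw [hgi] at h2
        simp [hbi, h1, h2]
      · have hgb : g b = f b := by simp [hg, hbl, hbi]
        rw [hgb] at h2
        rw [mem_insert] at hb
        simp [hb.resolve_left hbi, h1, h2]
  unfold pairsIn
  refine (card_le_card hsub).trans ((card_union_le _ _).trans (Nat.add_le_add
    ((card_union_le _ _).trans (Nat.add_le_add le_rfl ?_)) ?_)) <;> split_ifs <;> simp

theorem remIn_insert {s : Finset (Fin m)} {f g : Fin m → Fin m} {i j : Fin m} (hi : i ∉ s)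
    (hj : j ∉ s.image f) (hg : (insert i s).image g = insert j (s.image f)) (a : V) :
    remIn H x y (insert i s) g a + (if H.Adj a (x i) then 1 else 0)
      + (if H.Adj a (y j) then 1 else 0) = remIn H x y s f a := by
  have h : ∀ (u : Finset (Fin m)) (k : Fin m) (P : Fin m → Prop) [DecidablePred P], k ∉ u →
      ((insert k u)ᶜ.filter P).card + (if P k then 1 else 0) = (uᶜ.filter P).card := by
    intro u k P _ hk
    have e : uᶜ = insert k (insert k u)ᶜ := by
      ext b
      by_cases hb : b = k <;> simp [hb, hk]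
    rw [e, filter_insert]
    split_ifs
    · rw [card_insert_of_notMem (by simp), compl_inj_iff.2 rfl]
    · rfl
  unfold remIn
  rw [hg]
  have h1 := h s i (fun b => H.Adj a (x b)) hi
  have h2 := h (s.image f) j (fun b => H.Adj a (y b)) hj
  omega

/-- The numerical step for a switch. -/
theorem sum_two_pow_le {ι : Type*} (A : Finset ι) (e1 e2 : Prop) [Decidable e1] [Decidable e2]
    (u v : ι → Prop) [DecidablePred u] [DecidablePred v] {D N : ℕ} (hN : 1 ≤ N)
    (hu : (A.filter u).card ≤ D) (hv : (A.filter v).card ≤ D) (hA : 2 * D * N ≤ A.card) :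
    ∑ l ∈ A, (2 : ℝ) ^ ((if e1 ∧ u l then 1 else 0) + (if v l ∧ e2 then 1 else 0))
      ≤ A.card * (1 + 1 / (N : ℝ)) ^ ((if e1 then 1 else 0) + (if e2 then 1 else 0)) := by
  have hq : 2 * (D : ℝ) ≤ A.card * (1 / (N : ℝ)) := by
    rw [mul_one_div, le_div_iff₀ (by exact_mod_cast hN)]
    exact_mod_cast hA
  have hD0 : (0 : ℝ) ≤ D := Nat.cast_nonneg D
  have hu' : ∑ l ∈ A, (if u l then (1 : ℝ) else 0) ≤ D := by
    rw [sum_boole]; exact_mod_cast hu
  have hv' : ∑ l ∈ A, (if v l then (1 : ℝ) else 0) ≤ D := by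
    rw [sum_boole]; exact_mod_cast hv
  by_cases h1 : e1 <;> by_cases h2 : e2 <;>
    simp only [h1, h2, true_and, and_true, false_and, and_false, if_false, if_true,
      Nat.zero_add, Nat.add_zero, pow_zero, pow_one, mul_one, sum_const, nsmul_eq_mul, le_refl]
  · calc ∑ l ∈ A, (2 : ℝ) ^ ((if u l then 1 else 0) + if v l then 1 else 0)
        ≤ ∑ l ∈ A, (1 + 2 * (if u l then (1 : ℝ) else 0) + 2 * if v l then 1 else 0) :=
          sum_le_sum fun l _ => by split_ifs <;> norm_num
      _ ≤ A.card + 2 * D + 2 * D := by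
          rw [sum_add_distrib, sum_add_distrib, ← mul_sum, ← mul_sum]
          simp only [sum_const, nsmul_eq_mul, mul_one]
          linarith
      _ ≤ _ := by
          rw [show (1 + 1 : ℕ) = 2 from rfl]
          nlinarith [mul_nonneg (Nat.cast_nonneg (α := ℝ) A.card) (sq_nonneg (1 / (N : ℝ)))]
  · calc ∑ l ∈ A, (2 : ℝ) ^ (if u l then 1 else 0)
        ≤ ∑ l ∈ A, (1 + if u l then (1 : ℝ) else 0) :=
          sum_le_sum fun l _ => by split_ifs <;> norm_num
      _ ≤ A.card + D := by
          rw [sum_add_distrib]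
          simp only [sum_const, nsmul_eq_mul, mul_one]
          linarith
      _ ≤ _ := by nlinarith
  · calc ∑ l ∈ A, (2 : ℝ) ^ (if v l then 1 else 0)
        ≤ ∑ l ∈ A, (1 + if v l then (1 : ℝ) else 0) :=
          sum_le_sum fun l _ => by split_ifs <;> norm_num
      _ ≤ A.card + D := by
          rw [sum_add_distrib]
          simp only [sum_const, nsmul_eq_mul, mul_one]
          linarith
      _ ≤ _ := by nlinarith

/-- One insertion keeps the pairing good and does not increase the potential. -/
theorem exists_step {D τ N F : ℕ} (hD : ∀ v, (H.neighborFinset v).card ≤ D)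
    (hx : Function.Injective x) (hy : Function.Injective y) (hN : 1 ≤ N)
    (hF : 8 * F ≤ m) (hDN : 12 * D * N ≤ m) {s : Finset (Fin m)} {f : Fin m → Fin m}
    {i : Fin m} (hi : i ∉ s) (hg : Good2 H x y τ s f)
    (hforb : ∀ a ∈ univ.image x ∪ univ.image y, ∀ B : Finset V,
      (∀ b ∈ B, Forb2 H x y τ s f a b) → B.card ≤ F) :
    ∃ g, Good2 H x y τ (insert i s) g ∧ pot H x y N (insert i s) g ≤ pot H x y N s f := by
  classical
  have hq : (0 : ℝ) ≤ 1 / (N : ℝ) := by positivity
  have h1q : (1 : ℝ) ≤ 1 + 1 / (N : ℝ) := by linarith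
  have hfinj := hg.1
  set S := univ.image x ∪ univ.image y with hS
  set free := (s.image f)ᶜ with hfree
  have hfc : free.card = m - s.card := by
    rw [hfree, card_compl, card_image_of_injOn hfinj, Fintype.card_fin]
  have hnj : ∀ j ∈ free, ∀ l ∈ s, f l ≠ j := by
    intro j hj l hl e
    exact mem_compl.1 hj (mem_image.2 ⟨l, hl, e⟩)
  have hsm : s.card < m := by
    have := card_le_univ (insert i s)
    rw [card_insert_of_notMem hi, Fintype.card_fin] at this
    omega
  have hxS : ∀ l, x l ∈ S := fun l => mem_union_left _ (mem_image_of_mem _ (mem_univ l))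
  have hyS : ∀ l, y l ∈ S := fun l => mem_union_right _ (mem_image_of_mem _ (mem_univ l))
  have nbY : ∀ (B : Finset (Fin m)) (a : V),
      (B.filter fun l => H.Adj a (y l)).card ≤ D := fun B a =>
    (card_le_card_of_injOn y (fun l hl => by simpa using (mem_filter.1 hl).2) hy.injOn).trans
      (hD a)
  by_cases hbig : m ≤ 2 * free.card
  · set A := free.filter fun j => ¬ Forb2 H x y τ s f (x i) (y j) with hA
    have hbad : (free.filter fun j => Forb2 H x y τ s f (x i) (y j)).card ≤ F := by
      rw [← card_image_of_injective _ hy]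
      refine hforb _ (hxS i) _ fun b hb => ?_
      obtain ⟨j, hj, rfl⟩ := mem_image.1 hb
      exact (mem_filter.1 hj).2
    have hAc : m ≤ 4 * A.card := by
      have hsub : free ⊆ A ∪ free.filter fun j => Forb2 H x y τ s f (x i) (y j) := by
        intro j hj
        by_cases h : Forb2 H x y τ s f (x i) (y j)
        · exact mem_union_right _ (mem_filter.2 ⟨hj, h⟩)
        · exact mem_union_left _ (mem_filter.2 ⟨hj, h⟩)
      have := (card_le_card hsub).trans (card_union_le _ _)
      omega
    have hA2 : 2 * D * N ≤ A.card := by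
      rw [show 12 * D * N = 6 * (2 * D * N) from by ring] at hDN
      omega
    have hne : A.Nonempty := card_pos.1 (by omega)
    have hsum : ∑ j ∈ A, pot H x y N (insert i s) (Function.update f i j)
        ≤ ∑ _j ∈ A, pot H x y N s f := by
      unfold pot
      rw [sum_comm, sum_comm (t := univ.image x ∪ univ.image y)]
      refine sum_le_sum fun a _ => ?_
      set p := pairsIn H x y s f a with hp
      set r := remIn H x y s f a with hr
      have key : ∀ j ∈ A,
          (2 : ℝ) ^ pairsIn H x y (insert i s) (Function.update f i j) a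
            * (1 + 1 / (N : ℝ)) ^ remIn H x y (insert i s) (Function.update f i j) a
          * (1 + 1 / (N : ℝ)) ^ (if H.Adj a (x i) then 1 else 0)
          ≤ (2 : ℝ) ^ p * (1 + 1 / (N : ℝ)) ^ r
            * 2 ^ ((if H.Adj a (x i) ∧ H.Adj a (y j) then 1 else 0)
              + (if False ∧ False then 1 else 0)) := by
        intro j hj
        have hjf : j ∉ s.image f := mem_compl.1 (mem_filter.1 hj).1
        have himg : (insert i s).image (Function.update f i j) = insert j (s.image f) := by
          rw [image_insert, Function.update_self]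
          exact congrArg _ (image_congr fun l hl =>
            Function.update_of_ne (ne_of_mem_of_not_mem (mem_coe.1 hl) hi) _ _)
        have hr' := remIn_insert H x y hi hjf himg a
        simp only [false_and, if_false, Nat.add_zero]
        rw [pairsIn_direct H x y hi, ← hp, mul_assoc, ← pow_add,
          mul_right_comm ((2 : ℝ) ^ p), ← pow_add 2]
        refine mul_le_mul_of_nonneg_left (pow_le_pow_right₀ h1q ?_) (by positivity)
        omega
      have h2 := sum_two_pow_le A (H.Adj a (x i)) False (fun j => H.Adj a (y j))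
        (fun _ => False) hN (nbY A a) (by simp) hA2
      simp only [if_false, Nat.add_zero] at h2
      refine le_of_mul_le_mul_right (a :=
        (1 + 1 / (N : ℝ)) ^ (if H.Adj a (x i) then 1 else 0)) ?_ (by positivity)
      rw [sum_mul, sum_const, nsmul_eq_mul]
      refine (sum_le_sum key).trans ?_
      rw [← mul_sum]
      calc _ ≤ (2 : ℝ) ^ p * (1 + 1 / (N : ℝ)) ^ r
            * (A.card * (1 + 1 / (N : ℝ)) ^ (if H.Adj a (x i) then 1 else 0)) :=
            mul_le_mul_of_nonneg_left (by simpa using h2) (by positivity)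
        _ = _ := by ring
    obtain ⟨j, hj, hle⟩ := exists_le_of_sum_le hne hsum
    exact ⟨_, good2_direct H x y hi hg (hnj j (mem_filter.1 hj).1) (mem_filter.1 hj).2, hle⟩
  · obtain ⟨j, hj⟩ := card_pos.1 (show 0 < free.card by omega)
    set A := s.filter fun l => ¬ Forb2 H x y τ s f (x i) (y (f l)) ∧
      ¬ Forb2 H x y τ s f (x l) (y j) with hA
    have hb1 : (s.filter fun l => Forb2 H x y τ s f (x i) (y (f l))).card ≤ F := by
      rw [← card_image_of_injOn (f := fun l => y (f l)) fun a ha b hb e =>
        hfinj (mem_filter.1 ha).1 (mem_filter.1 hb).1 (hy e)]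
      refine hforb _ (hxS i) _ fun b hb => ?_
      obtain ⟨l, hl, rfl⟩ := mem_image.1 hb
      exact (mem_filter.1 hl).2
    have hb2 : (s.filter fun l => Forb2 H x y τ s f (x l) (y j)).card ≤ F := by
      rw [← card_image_of_injective _ hx]
      refine hforb _ (hyS j) _ fun b hb => ?_
      obtain ⟨l, hl, rfl⟩ := mem_image.1 hb
      exact (Forb2_comm H x y τ s f _ _).1 (mem_filter.1 hl).2
    have hAc : m ≤ 4 * A.card := by
      have hsub : s ⊆ A ∪ (s.filter fun l => Forb2 H x y τ s f (x i) (y (f l))) ∪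
          (s.filter fun l => Forb2 H x y τ s f (x l) (y j)) := by
        intro l hl
        by_cases h1 : Forb2 H x y τ s f (x i) (y (f l))
        · exact mem_union_left _ (mem_union_right _ (mem_filter.2 ⟨hl, h1⟩))
        · by_cases h2 : Forb2 H x y τ s f (x l) (y j)
          · exact mem_union_right _ (mem_filter.2 ⟨hl, h2⟩)
          · exact mem_union_left _ (mem_union_left _ (mem_filter.2 ⟨hl, h1, h2⟩))
      have := (card_le_card hsub).trans ((card_union_le _ _).trans
        (Nat.add_le_add_right (card_union_le _ _) _))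
      omega
    have hA2 : 2 * D * N ≤ A.card := by
      rw [show 12 * D * N = 6 * (2 * D * N) from by ring] at hDN
      omega
    have hne : A.Nonempty := card_pos.1 (by omega)
    have hsum : ∑ l ∈ A,
        pot H x y N (insert i s) (Function.update (Function.update f i (f l)) l j)
        ≤ ∑ _l ∈ A, pot H x y N s f := by
      unfold pot
      rw [sum_comm, sum_comm (t := univ.image x ∪ univ.image y)]
      refine sum_le_sum fun a _ => ?_
      set p := pairsIn H x y s f a with hp
      set r := remIn H x y s f a with hr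
      set E := (1 + 1 / (N : ℝ)) ^
        ((if H.Adj a (x i) then 1 else 0) + (if H.Adj a (y j) then 1 else 0)) with hE
      have key : ∀ l ∈ A,
          (2 : ℝ) ^ pairsIn H x y (insert i s) (Function.update (Function.update f i (f l)) l j) a
            * (1 + 1 / (N : ℝ)) ^
              remIn H x y (insert i s) (Function.update (Function.update f i (f l)) l j) a
          * E
          ≤ (2 : ℝ) ^ p * (1 + 1 / (N : ℝ)) ^ r
            * 2 ^ ((if H.Adj a (x i) ∧ H.Adj a (y (f l)) then 1 else 0)
              + (if H.Adj a (x l) ∧ H.Adj a (y j) then 1 else 0)) := by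
        intro l hl
        have hls := (mem_filter.1 hl).1
        have hil : i ≠ l := fun h => hi (h ▸ hls)
        have himg : (insert i s).image (Function.update (Function.update f i (f l)) l j)
            = insert j (s.image f) := by
          ext b
          simp only [mem_image, mem_insert, Function.update_apply]
          grind
        have hr' := remIn_insert H x y hi (mem_compl.1 hj) himg a
        have hp' := pairsIn_switch H x y (f := f) (j := j) hi hls a
        rw [hE, mul_assoc, ← pow_add, mul_right_comm, ← pow_add]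
        exact mul_le_mul (pow_le_pow_right₀ one_le_two (by omega))
          (pow_le_pow_right₀ h1q (by omega)) (by positivity) (by positivity)
      have hu : (A.filter fun l => H.Adj a (y (f l))).card ≤ D := by
        rw [← card_image_of_injOn (f := f) fun b hb c hc e =>
          hfinj (mem_filter.1 (mem_filter.1 hb).1).1 (mem_filter.1 (mem_filter.1 hc).1).1 e]
        refine le_trans (card_le_card fun b hb => ?_) (nbY univ a)
        obtain ⟨l, hl, rfl⟩ := mem_image.1 hb
        exact mem_filter.2 ⟨mem_univ _, (mem_filter.1 hl).2⟩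
      have hv : (A.filter fun l => H.Adj a (x l)).card ≤ D :=
        (card_le_card_of_injOn x (fun l hl => by simpa using (mem_filter.1 hl).2)
          hx.injOn).trans (hD a)
      have h2 := sum_two_pow_le A (H.Adj a (x i)) (H.Adj a (y j))
        (fun l => H.Adj a (y (f l))) (fun l => H.Adj a (x l)) hN hu hv hA2
      refine le_of_mul_le_mul_right (a := E) ?_ (by positivity)
      rw [sum_mul, sum_const, nsmul_eq_mul]
      refine (sum_le_sum key).trans ?_
      rw [← mul_sum]
      calc _ ≤ (2 : ℝ) ^ p * (1 + 1 / (N : ℝ)) ^ r * (A.card * E) :=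
            mul_le_mul_of_nonneg_left h2 (by positivity)
        _ = _ := by ring
    obtain ⟨l, hl, hle⟩ := exists_le_of_sum_le hne hsum
    obtain ⟨hls, hl1, hl2⟩ := mem_filter.1 hl
    exact ⟨_, good2_switch H x y hi hls hg (hnj j hj) hl1 hl2, hle⟩

theorem log_add_sq_le {m : ℕ} (hm : 1 ≤ m) : (Nat.log 2 (2 * m) + 3) ^ 2 ≤ 32 * m := by
  have h1 : 2 ^ Nat.log 2 (2 * m) ≤ 2 * m := Nat.pow_log_le_self 2 (by omega)
  have h2 : ∀ k : ℕ, (k + 3) ^ 2 ≤ 16 * 2 ^ k := by
    intro k
    induction k with
    | zero => norm_num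
    | succ k ih =>
      rw [pow_succ 2 k]
      by_cases hk : k = 0
      · subst hk; norm_num
      · have : 1 ≤ k := Nat.pos_of_ne_zero hk
        nlinarith
  calc _ ≤ 16 * 2 ^ Nat.log 2 (2 * m) := h2 _
    _ ≤ _ := by omega

/-- A pairing of two lists when `2 ^ 26 * D ^ 4 ≤ m ^ 3`. -/
theorem exists_good2 {D : ℕ} (hD : ∀ v, (H.neighborFinset v).card ≤ D) (hD1 : 1 ≤ D)
    (hx : Function.Injective x) (hy : Function.Injective y)
    (hm : 2 ^ 26 * D ^ 4 ≤ m ^ 3) :
    ∃ (τ : ℕ) (f : Fin m → Fin m), Good2 H x y τ univ f := by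
  classical
  have hm0 : 1 ≤ m := by
    by_contra h
    have h0 : m = 0 := by omega
    subst h0
    have : 0 < D ^ 4 := pow_pos hD1 4
    omega
  have hDm : 64 * D ≤ m := by
    have h : (64 * D) ^ 4 ≤ m ^ 4 :=
      calc (64 * D) ^ 4 = 2 ^ 24 * D ^ 4 := by ring
        _ ≤ 2 ^ 26 * D ^ 4 := Nat.mul_le_mul_right _ (by norm_num)
        _ ≤ m ^ 3 := hm
        _ ≤ m ^ 4 := Nat.pow_le_pow_right hm0 (by norm_num)
    exact (Nat.pow_le_pow_iff_left (by norm_num)).1 h
  set τ := 32 * (D * D) / m with hτ
  set N := m / (12 * D) with hNdef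
  set P := 2 * D / N + 1 with hPdef
  set K := Nat.log 2 (2 * m) + 1 + 2 * P with hKdef
  set S := univ.image x ∪ univ.image y with hS
  have hN1 : 1 ≤ N := (Nat.le_div_iff_mul_le (by omega)).2 (by omega)
  have hDN : 12 * D * N ≤ m := Nat.mul_div_le m (12 * D)
  have hτm : τ * m ≤ 32 * (D * D) := Nat.div_mul_le_self _ _
  have hτ1 : 32 * (D * D) < (τ + 1) * m := by
    have := Nat.lt_mul_div_succ (32 * (D * D)) (show 0 < m from hm0)
    rw [← hτ] at this
    linarith
  -- the forbidden partners are few
  have hKτ : 16 * (K * τ) ≤ m := by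
    set L := Nat.log 2 (2 * m) + 3 with hLdef
    set Q := 2 * D / N with hQ
    have hL2 : L ^ 2 ≤ 32 * m := log_add_sq_le hm0
    have hQN : Q * N ≤ 2 * D := Nat.div_mul_le_self _ _
    have hNm : m ≤ 24 * D * N := by
      have := Nat.lt_mul_div_succ m (show 0 < 12 * D by omega)
      rw [← hNdef] at this
      nlinarith [Nat.mul_le_mul_left (12 * D) hN1]
    have hQm : Q * m ≤ 48 * (D * D) := by
      calc Q * m ≤ Q * (24 * D * N) := Nat.mul_le_mul_left _ hNm
        _ = 24 * D * (Q * N) := by ring
        _ ≤ 24 * D * (2 * D) := Nat.mul_le_mul_left _ hQN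
        _ = _ := by ring
    have hK' : K = L + 2 * Q := by omega
    have h1 : 32 * (L * τ) ≤ m := by
      have hsq : (32 * (L * τ)) ^ 2 ≤ m ^ 2 := by
        refine Nat.le_of_mul_le_mul_right ?_ (show 0 < m ^ 2 by positivity)
        calc (32 * (L * τ)) ^ 2 * m ^ 2 = 1024 * L ^ 2 * (τ * m) ^ 2 := by ring
          _ ≤ 1024 * (32 * m) * (32 * (D * D)) ^ 2 := by gcongr
          _ = 2 ^ 25 * D ^ 4 * m := by ring
          _ ≤ m ^ 3 * m := Nat.mul_le_mul_right _
              ((Nat.mul_le_mul_right _ (by norm_num)).trans hm)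
          _ = _ := by ring
      exact (Nat.pow_le_pow_iff_left (by norm_num)).1 hsq
    have h2 : 32 * (2 * Q * τ) ≤ m := by
      refine Nat.le_of_mul_le_mul_right ?_ (show 0 < m ^ 2 by positivity)
      calc 32 * (2 * Q * τ) * m ^ 2 = 64 * ((Q * m) * (τ * m)) := by ring
        _ ≤ 64 * (48 * (D * D) * (32 * (D * D))) := by gcongr
        _ = 98304 * D ^ 4 := by ring
        _ ≤ m ^ 3 := (Nat.mul_le_mul_right _ (by norm_num)).trans hm
        _ = _ := by ring
    have e : K * τ = L * τ + 2 * Q * τ := by rw [hK']; ring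
    omega
  have hFsum : ∀ a, 8 * (D + (univ.filter fun b =>
      τ < (H.neighborFinset a ∩ H.neighborFinset b).card).card + K * τ) ≤ m := by
    intro a
    have h := card_codeg_mul_le H hD τ a
    set c := (univ.filter fun b => τ < (H.neighborFinset a ∩ H.neighborFinset b).card).card
    have h3 : 32 * c ≤ m := by
      refine Nat.le_of_mul_le_mul_left ?_ (Nat.succ_pos τ)
      calc (τ + 1) * (32 * c) = 32 * ((τ + 1) * c) := by ring
        _ ≤ 32 * (D * D) := Nat.mul_le_mul_left _ h
        _ ≤ (τ + 1) * m := hτ1.le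
    omega
  -- the potential bounds the number of pairs in a neighbourhood
  have hB : ∀ s f, pot H x y N s f ≤ pot H x y N ∅ id → ∀ a ∈ S, pairsIn H x y s f a ≤ K := by
    intro s f hle a ha
    have hq : (1 : ℝ) ≤ 1 + 1 / (N : ℝ) := le_add_of_nonneg_right (by positivity)
    have hN4 : (1 + 1 / (N : ℝ)) ^ N ≤ 4 := by
      calc (1 + 1 / (N : ℝ)) ^ N ≤ Real.exp (1 / (N : ℝ)) ^ N := by
            gcongr; linarith [Real.add_one_le_exp (1 / (N : ℝ))]
        _ = Real.exp 1 := by
            rw [← Real.exp_nat_mul, mul_one_div, div_self]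
            exact_mod_cast (show N ≠ 0 by omega)
        _ ≤ 4 := by linarith [Real.exp_one_lt_three]
    have hr0 : ∀ b, remIn H x y ∅ id b ≤ 2 * D := by
      intro b
      unfold remIn
      simp only [image_empty, compl_empty]
      have e1 : (univ.filter fun i => H.Adj b (x i)).card ≤ D :=
        (card_le_card_of_injOn x (fun l hl => by simpa using (mem_filter.1 hl).2)
          hx.injOn).trans (hD b)
      have e2 : (univ.filter fun i => H.Adj b (y i)).card ≤ D :=
        (card_le_card_of_injOn y (fun l hl => by simpa using (mem_filter.1 hl).2)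
          hy.injOn).trans (hD b)
      omega
    have hterm : ∀ b, (2 : ℝ) ^ pairsIn H x y ∅ id b * (1 + 1 / (N : ℝ)) ^ remIn H x y ∅ id b
        ≤ 2 ^ (2 * P) := by
      intro b
      simp only [pairsIn, filter_empty, card_empty, pow_zero, one_mul]
      calc (1 + 1 / (N : ℝ)) ^ remIn H x y ∅ id b ≤ (1 + 1 / (N : ℝ)) ^ (N * P) := by
            refine pow_le_pow_right₀ hq ((hr0 b).trans ?_)
            have := Nat.lt_mul_div_succ (2 * D) (show 0 < N from hN1)
            rw [hPdef]; omega
        _ = ((1 + 1 / (N : ℝ)) ^ N) ^ P := pow_mul _ _ _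
        _ ≤ 4 ^ P := by gcongr
        _ = _ := by rw [pow_mul]; norm_num
    have hc : S.card < 2 ^ (Nat.log 2 (2 * m) + 1) := by
      refine lt_of_le_of_lt ((card_union_le _ _).trans (Nat.add_le_add card_image_le card_image_le))
        ?_
      rw [card_univ, Fintype.card_fin, ← two_mul]
      exact Nat.lt_pow_succ_log_self one_lt_two _
    have h2 : (2 : ℝ) ^ pairsIn H x y s f a < 2 ^ K := by
      calc (2 : ℝ) ^ pairsIn H x y s f a
          ≤ 2 ^ pairsIn H x y s f a * (1 + 1 / (N : ℝ)) ^ remIn H x y s f a :=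
            le_mul_of_one_le_right (by positivity) (one_le_pow₀ hq)
        _ ≤ pot H x y N s f :=
            single_le_sum (f := fun b => (2 : ℝ) ^ pairsIn H x y s f b *
              (1 + 1 / (N : ℝ)) ^ remIn H x y s f b) (fun b _ => by positivity) ha
        _ ≤ pot H x y N ∅ id := hle
        _ ≤ S.card * 2 ^ (2 * P) := by
            rw [← nsmul_eq_mul]; exact sum_le_card_nsmul _ _ _ fun b _ => hterm b
        _ < 2 ^ (Nat.log 2 (2 * m) + 1) * 2 ^ (2 * P) :=
            mul_lt_mul_of_pos_right (by exact_mod_cast hc) (by positivity)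
        _ = 2 ^ K := (pow_add _ _ _).symm
    exact ((pow_lt_pow_iff_right₀ one_lt_two).1 h2).le
  suffices h : ∀ s : Finset (Fin m),
      ∃ f, Good2 H x y τ s f ∧ pot H x y N s f ≤ pot H x y N ∅ id by
    obtain ⟨f, hf, -⟩ := h univ
    exact ⟨τ, f, hf⟩
  intro s
  induction s using Finset.induction_on with
  | empty => exact ⟨id, by simp [Good2], le_rfl⟩
  | @insert i s hi ih =>
    obtain ⟨f, hg, hle⟩ := ih
    have hforb : ∀ a ∈ S, ∀ B : Finset V,
        (∀ b ∈ B, Forb2 H x y τ s f a b) → B.card ≤ m / 8 := by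
      intro a ha B hB'
      have h1 := card_forb2 H x y hD s f hg.2.2.1 a (hB s f hle a ha)
      have h2 : B.card ≤ (univ.filter fun b => Forb2 H x y τ s f a b).card :=
        card_le_card fun b hb => mem_filter.2 ⟨mem_univ _, hB' b hb⟩
      have := hFsum a
      omega
    obtain ⟨g, hg', hle'⟩ := exists_step H x y hD hx hy hN1 (Nat.mul_div_le m 8) hDN hi hg hforb
    exact ⟨g, hg', hle'.trans hle⟩

end Vale.Agent.P060
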