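import Vale.Agent.P060.Defs
import Vale.Agent.P060.Pairing
import Vale.Agent.P060.Potential

/-!
# P060: Hadwiger's conjecture for graphs of small co-degree
-/

namespace Vale.Agent.P060

open Finset

variable {V : Type*} [Fintype V] [DecidableEq V] (G : SimpleGraph V)

/-- A matching with `m` edges in `H`, written as two lists. -/
def IsMatchingList (H : SimpleGraph V) {m : ℕ} (x y : Fin m → V) : Prop :=
  Function.Injective (Sum.elim x y) ∧ ∀ i, H.Adj (x i) (y i)

omit [DecidableEq V] in
theorem exists_maximum_matching (H : SimpleGraph V) :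
    ∃ m, (∃ x y : Fin m → V, IsMatchingList H x y) ∧
      ∀ x y : Fin (m + 1) → V, ¬ IsMatchingList H x y := by
  classical
  let P : ℕ → Prop := fun m => ∃ x y : Fin m → V, IsMatchingList H x y
  have h0 : P 0 := ⟨Fin.elim0, Fin.elim0, by
    constructor
    · intro a; rcases a with a | a <;> exact a.elim0
    · exact fun i => i.elim0⟩
  refine ⟨Nat.findGreatest P (Fintype.card V), Nat.findGreatest_spec (Nat.zero_le _) h0, ?_⟩
  intro x y h
  have hle : Nat.findGreatest P (Fintype.card V) + 1 ≤ Fintype.card V := by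
    have := Fintype.card_le_of_injective _ h.1
    rw [Fintype.card_sum, Fintype.card_fin] at this
    omega
  exact Nat.findGreatest_is_greatest (Nat.lt_succ_self _) hle ⟨x, y, h⟩

omit [Fintype V] [DecidableEq V] in
theorem IsMatchingList.snoc {H : SimpleGraph V} {m : ℕ} {x y : Fin m → V}
    (h : IsMatchingList H x y) {u w : V} (huw : H.Adj u w)
    (hu : ∀ i, x i ≠ u ∧ y i ≠ u) (hw : ∀ i, x i ≠ w ∧ y i ≠ w) :
    IsMatchingList H (Fin.snoc x u) (Fin.snoc y w) := by
  obtain ⟨hinj, hadj⟩ := h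
  have hx : Function.Injective x := hinj.comp Sum.inl_injective
  have hy : Function.Injective y := hinj.comp Sum.inr_injective
  have hxy : ∀ a b, x a ≠ y b := fun a b e => by simpa using @hinj (Sum.inl a) (Sum.inr b) e
  refine ⟨Function.Injective.sumElim ?_ ?_ ?_, ?_⟩
  · rw [Fin.snoc_injective_iff]
    exact ⟨hx, fun ⟨i, hi⟩ => (hu i).1 hi⟩
  · rw [Fin.snoc_injective_iff]
    exact ⟨hy, fun ⟨i, hi⟩ => (hw i).2 hi⟩
  · intro a b
    cases a using Fin.lastCases <;> cases b using Fin.lastCases <;>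
      simp only [Fin.snoc_last, Fin.snoc_castSucc]
    · exact huw.ne
    · exact (hu _).2.symm
    · exact (hw _).1
    · exact hxy _ _
  · intro a
    cases a using Fin.lastCases <;> simp [huw, hadj]

omit [Fintype V] [DecidableEq V] in
theorem IsMatchingList.update {H : SimpleGraph V} {m : ℕ} {x y : Fin m → V}
    (h : IsMatchingList H x y) (i : Fin m) {u : V} (hiu : H.Adj (x i) u)
    (hu : ∀ a, x a ≠ u ∧ y a ≠ u) :
    IsMatchingList H x (Function.update y i u) := by
  classical
  obtain ⟨hinj, hadj⟩ := h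
  have hx : Function.Injective x := hinj.comp Sum.inl_injective
  have hy : Function.Injective y := hinj.comp Sum.inr_injective
  have hxy : ∀ a b, x a ≠ y b := fun a b e => by simpa using @hinj (Sum.inl a) (Sum.inr b) e
  refine ⟨Function.Injective.sumElim hx ?_ ?_, ?_⟩
  · intro a b hab
    simp only [Function.update_apply] at hab
    split_ifs at hab with ha hb hb
    · exact ha.trans hb.symm
    · exact absurd hab.symm (hu b).2
    · exact absurd hab (hu a).2
    · exact hy hab
  · intro a b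
    simp only [Function.update_apply]
    split_ifs with hb
    · exact (hu a).1
    · exact hxy a b
  · intro a
    simp only [Function.update_apply]
    split_ifs with ha
    · exact ha ▸ hiu
    · exact hadj a

omit [Fintype V] [DecidableEq V] in
theorem IsMatchingList.orient {H : SimpleGraph V} {m : ℕ} {x y : Fin m → V}
    (h : IsMatchingList H x y) (p : Fin m → Prop) [DecidablePred p] :
    IsMatchingList H (fun i => if p i then x i else y i) (fun i => if p i then y i else x i) := by
  obtain ⟨hinj, hadj⟩ := h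
  let e : Fin m ⊕ Fin m → Fin m ⊕ Fin m :=
    Sum.elim (fun i => if p i then Sum.inl i else Sum.inr i)
      (fun i => if p i then Sum.inr i else Sum.inl i)
  have he : Function.Injective e := by
    rintro (a | a) (b | b) hab <;> simp only [e, Sum.elim_inl, Sum.elim_inr] at hab <;>
      split_ifs at hab <;> simp_all
  refine ⟨?_, fun i => ?_⟩
  · convert hinj.comp he using 1
    funext a
    rcases a with a | a <;> simp only [Function.comp_apply, e, Sum.elim_inl, Sum.elim_inr] <;>
      split_ifs <;> rfl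
  · dsimp only
    split_ifs
    · exact hadj i
    · exact (hadj i).symm

/-- A maximum matching of `H`, oriented so that every uncovered neighbour of a second
endpoint is also a neighbour of the first endpoint. -/
theorem exists_structure (H : SimpleGraph V) :
    ∃ (m : ℕ) (x y : Fin m → V) (U : Finset V), IsMatchingList H x y ∧
      (∀ v, v ∈ U ↔ ∀ i, x i ≠ v ∧ y i ≠ v) ∧ U.card + 2 * m = Fintype.card V ∧
      (∀ u ∈ U, ∀ w ∈ U, ¬ H.Adj u w) ∧
      (∀ i, ∀ u ∈ U, ∀ w ∈ U, H.Adj (x i) u → H.Adj (y i) w → u = w) ∧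
      ∀ i, ∀ u ∈ U, H.Adj (y i) u → H.Adj (x i) u := by
  classical
  obtain ⟨m, ⟨x0, y0, hM0⟩, hmax⟩ := exists_maximum_matching H
  set U := univ \ univ.image (Sum.elim x0 y0) with hU
  let keep : Fin m → Prop := fun i => ∃ w ∈ U, H.Adj (x0 i) w
  set x : Fin m → V := fun i => if keep i then x0 i else y0 i with hx
  set y : Fin m → V := fun i => if keep i then y0 i else x0 i with hy
  have hM : IsMatchingList H x y := hM0.orient keep
  have hUmem : ∀ v, v ∈ U ↔ ∀ i, x i ≠ v ∧ y i ≠ v := by
    intro v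
    have h0 : v ∈ U ↔ ∀ i, x0 i ≠ v ∧ y0 i ≠ v := by simp [hU, forall_and]
    rw [h0]
    refine forall_congr' fun i => ?_
    simp only [hx, hy]
    split_ifs <;> tauto
  have hUx : ∀ u ∈ U, ∀ i, x i ≠ u ∧ y i ≠ u := fun u hu => (hUmem u).1 hu
  have hind : ∀ u ∈ U, ∀ w ∈ U, ¬ H.Adj u w := fun u hu w hw huw =>
    hmax _ _ (hM.snoc huw (hUx u hu) (hUx w hw))
  have haug : ∀ i, ∀ u ∈ U, ∀ w ∈ U, H.Adj (x i) u → H.Adj (y i) w → u = w := by
    intro i u hu w hw hxu hyw
    by_contra hne
    refine hmax _ _ ((hM.update i hxu (hUx u hu)).snoc hyw.symm ?_ ?_)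
    · intro a
      refine ⟨(hUx w hw a).1, ?_⟩
      simp only [Function.update_apply]
      split_ifs
      · exact hne
      · exact (hUx w hw a).2
    · intro a
      have h := hM.1
      refine ⟨fun e => by simpa using @h (Sum.inl a) (Sum.inr i) e, ?_⟩
      simp only [Function.update_apply]
      split_ifs with ha
      · exact fun e => (hUx u hu i).2 e.symm
      · exact fun e => ha (by simpa using @h (Sum.inr a) (Sum.inr i) e)
  refine ⟨m, x, y, U, hM, hUmem, ?_, hind, haug, ?_⟩
  · rw [hU, card_univ_sdiff, card_image_of_injective _ hM0.1, card_univ, Fintype.card_sum,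
      Fintype.card_fin]
    have := Fintype.card_le_of_injective _ hM0.1
    rw [Fintype.card_sum, Fintype.card_fin] at this
    omega
  · intro i u hu hyu
    by_cases hk : keep i
    · obtain ⟨w, hw, hxw⟩ := id hk
      have hxe : x i = x0 i := by simp [hx, hk]
      rw [← hxe] at hxw
      exact haug i w hw u hu hxw hyu ▸ hxw
    · have hye : y i = x0 i := by simp [hy, hk]
      exact absurd ⟨u, hu, hye ▸ hyu⟩ hk

/-- The colouring by the matching edges, enlarged by common neighbours, and the other vertices. -/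
theorem colorable_of_structure {m : ℕ} {x y : Fin m → V} {U U' : Finset V}
    (hM : IsMatchingList Gᶜ x y) (hUmem : ∀ v, v ∈ U ↔ ∀ i, x i ≠ v ∧ y i ≠ v)
    (haug : ∀ i, ∀ u ∈ U, ∀ w ∈ U, Gᶜ.Adj (x i) u → Gᶜ.Adj (y i) w → u = w)
    (hU' : ∀ v ∈ U, v ∉ U' → ∃ i, Gᶜ.Adj (x i) v ∧ Gᶜ.Adj (y i) v) :
    G.Colorable (m + U'.card) := by
  classical
  let P : V → Fin m → Prop := fun v i =>
    v = x i ∨ v = y i ∨ (v ∈ U ∧ Gᶜ.Adj (x i) v ∧ Gᶜ.Adj (y i) v)
  have hcl : ∀ i v w, P v i → P w i → v = w ∨ Gᶜ.Adj v w := by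
    intro i v w hv hw
    rcases hv with hv | hv | ⟨hv, hv1, hv2⟩ <;> rcases hw with hw | hw | ⟨hw, hw1, hw2⟩
    · exact Or.inl (hv.trans hw.symm)
    · exact Or.inr (hv ▸ hw ▸ hM.2 i)
    · exact Or.inr (hv ▸ hw1)
    · exact Or.inr (hv ▸ hw ▸ (hM.2 i).symm)
    · exact Or.inl (hv.trans hw.symm)
    · exact Or.inr (hv ▸ hw2)
    · exact Or.inr (hw ▸ hv1.symm)
    · exact Or.inr (hw ▸ hv2.symm)
    · exact Or.inl (haug i v hv w hw hv1 hw2)
  have hex : ∀ v, ∃ c : Fin m ⊕ U', Sum.elim (fun i => P v i) (fun u : U' => (u : V) = v) c := by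
    intro v
    by_cases hv : v ∈ U
    · by_cases h' : v ∈ U'
      · exact ⟨Sum.inr ⟨v, h'⟩, rfl⟩
      · obtain ⟨i, hi⟩ := hU' v hv h'
        exact ⟨Sum.inl i, Or.inr (Or.inr ⟨hv, hi⟩)⟩
    · rw [hUmem] at hv
      simp only [not_forall, not_and_or, not_not] at hv
      obtain ⟨i, hi | hi⟩ := hv
      · exact ⟨Sum.inl i, Or.inl hi.symm⟩
      · exact ⟨Sum.inl i, Or.inr (Or.inl hi.symm)⟩
  choose c hc using hex
  have hcol : ∀ {v w}, G.Adj v w → c v ≠ c w := by
    intro v w hvw h
    have hv := hc v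
    have hw := hc w
    rw [← h] at hw
    cases hcv : c v with
    | inl i =>
      rw [hcv] at hv hw
      rcases hcl i v w hv hw with e | e
      · exact hvw.ne e
      · exact ((SimpleGraph.compl_adj _ _ _).1 e).2 hvw
    | inr u =>
      rw [hcv] at hv hw
      exact hvw.ne (hv.symm.trans hw)
  have := (SimpleGraph.Coloring.mk c hcol).colorable
  simpa using this

/-- The minor made of the pairs `{x i, y (f i)}` and the singletons in `U'`. -/
theorem hasCliqueMinor_of_pairing {m : ℕ} {x y : Fin m → V} {f : Fin m → Fin m} {U' : Finset V}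
    (hM : Function.Injective (Sum.elim x y)) (finj : Function.Injective f)
    (fad : ∀ i, ¬ Gᶜ.Adj (x i) (y (f i)))
    (fbad : ∀ i l, i ≠ l → ¬ (Gᶜ.Adj (x i) (x l) ∧ Gᶜ.Adj (x i) (y (f l)) ∧
      Gᶜ.Adj (y (f i)) (x l) ∧ Gᶜ.Adj (y (f i)) (y (f l))))
    (hout : ∀ u ∈ U', ∀ i, x i ≠ u ∧ y i ≠ u)
    (hyU : ∀ i, ∀ u ∈ U', ¬ Gᶜ.Adj (y i) u)
    (hind : ∀ u ∈ U', ∀ w ∈ U', ¬ Gᶜ.Adj u w) :
    HasCliqueMinor G (m + U'.card) := by
  classical
  have hx : Function.Injective x := hM.comp Sum.inl_injective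
  have hy : Function.Injective y := hM.comp Sum.inr_injective
  have hxy : ∀ a b, x a ≠ y b := fun a b h => by simpa using @hM (Sum.inl a) (Sum.inr b) h
  have adj : ∀ a b, a ≠ b → ¬ Gᶜ.Adj a b → G.Adj a b := by
    intro a b hab h
    rw [SimpleGraph.compl_adj] at h
    tauto
  let B : Fin m ⊕ U' → Set V :=
    Sum.elim (fun i => {x i, y (f i)}) (fun u => {(u : V)})
  have hcard : Fintype.card (Fin m ⊕ U') = m + U'.card := by simp
  rw [← hcard]
  refine HasCliqueMinor.of_fintype B ?_ ?_ ?_ ?_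
  · rintro (i | u) <;> simp [B]
  · rintro (i | u)
    · exact SimpleGraph.induce_pair_connected_of_adj (adj _ _ (hxy _ _) (fad i))
    · have : Subsingleton (B (Sum.inr u)) := ⟨fun a b => Subtype.ext (a.2.trans b.2.symm)⟩
      have : Nonempty (B (Sum.inr u)) := ⟨⟨u, rfl⟩⟩
      exact ⟨SimpleGraph.Preconnected.of_subsingleton⟩
  · rintro (i | u) (j | w) hij <;>
      simp only [B, Sum.elim_inl, Sum.elim_inr, Set.disjoint_left, Set.mem_insert_iff,
        Set.mem_singleton_iff]
    · rintro a (rfl | rfl) (h | h)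
      · exact hij (congrArg _ (hx h))
      · exact hxy _ _ h
      · exact hxy _ _ h.symm
      · exact hij (congrArg _ (finj (hy h)))
    · rintro a (rfl | rfl) h
      · exact (hout w w.2 i).1 h
      · exact (hout w w.2 (f i)).2 h
    · rintro a rfl (h | h)
      · exact (hout u u.2 j).1 h.symm
      · exact (hout u u.2 (f j)).2 h.symm
    · rintro a rfl h
      exact hij (congrArg _ (Subtype.ext h))
  · rintro (i | u) (j | w) hij
    · have hne : i ≠ j := fun h => hij (congrArg _ h)
      have := fbad i j hne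
      simp only [not_and_or] at this
      rcases this with h | h | h | h
      · exact ⟨x i, by simp [B], x j, by simp [B], adj _ _ (hx.ne hne) h⟩
      · exact ⟨x i, by simp [B], y (f j), by simp [B], adj _ _ (hxy _ _) h⟩
      · exact ⟨y (f i), by simp [B], x j, by simp [B], adj _ _ (hxy _ _).symm h⟩
      · exact ⟨y (f i), by simp [B], y (f j), by simp [B],
          adj _ _ (hy.ne (finj.ne hne)) h⟩
    · exact ⟨y (f i), by simp [B], w, by simp [B],
        adj _ _ (hout w w.2 (f i)).2 (hyU _ w w.2)⟩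
    · exact ⟨u, by simp [B], y (f j), by simp [B],
        (adj _ _ (hout u u.2 (f j)).2 (hyU _ u u.2)).symm⟩
    · refine ⟨u, by simp [B], w, by simp [B], adj _ _ ?_ (hind _ u.2 _ w.2)⟩
      exact fun h => hij (congrArg _ (Subtype.ext h))

theorem compl_neighbor_card_le [DecidableRel Gᶜ.Adj] (D : ℕ)
    (hD : ∀ v : V, Nat.card {w : V // w ≠ v ∧ ¬ G.Adj v w} ≤ D) :
    ∀ v, (Gᶜ.neighborFinset v).card ≤ D := by
  classical
  intro v
  refine le_of_eq_of_le ?_ (hD v)
  rw [Nat.card_eq_fintype_card, Fintype.card_subtype]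
  congr 1
  ext w
  simp [SimpleGraph.compl_adj, ne_comm]

/-- `χ ≤ h` as soon as every two lists of the length of a maximum matching of the complement
can be paired. -/
theorem hadwiger_of_pairing
    (hpair : ∀ (m : ℕ) (x y : Fin m → V), Fintype.card V ≤ G.cliqueNum + 2 * m →
      Function.Injective x → Function.Injective y →
      ∃ f : Fin m → Fin m, Function.Injective f ∧ (∀ i, ¬ Gᶜ.Adj (x i) (y (f i))) ∧
        ∀ i l, i ≠ l → ¬ (Gᶜ.Adj (x i) (x l) ∧ Gᶜ.Adj (x i) (y (f l)) ∧
          Gᶜ.Adj (y (f i)) (x l) ∧ Gᶜ.Adj (y (f i)) (y (f l)))) :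
    ∃ t, G.Colorable t ∧ HasCliqueMinor G t := by
  classical
  obtain ⟨m, x, y, U, hM, hUmem, hUc, hind, haug, hori⟩ := exists_structure Gᶜ
  set U' := U.filter (fun u => ¬ ∃ i, Gᶜ.Adj (x i) u ∧ Gᶜ.Adj (y i) u) with hU'
  have hUcard : U.card ≤ G.cliqueNum := by
    suffices h : G.IsClique (U : Set V) from h.card_le_cliqueNum
    intro a ha b hb hab
    have := hind a ha b hb
    rw [SimpleGraph.compl_adj] at this
    by_contra h
    exact this ⟨hab, h⟩
  have hx : Function.Injective x := hM.1.comp Sum.inl_injective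
  have hy : Function.Injective y := hM.1.comp Sum.inr_injective
  obtain ⟨f, finj, fad, fbad⟩ := hpair m x y (by omega) hx hy
  refine ⟨m + U'.card, colorable_of_structure G hM hUmem haug ?_,
    hasCliqueMinor_of_pairing G hM.1 finj fad fbad
      (fun u hu => (hUmem u).1 (mem_filter.1 hu).1) ?_
      (fun u hu w hw => hind u (mem_filter.1 hu).1 w (mem_filter.1 hw).1)⟩
  · intro v hv hv'
    by_contra h
    exact hv' (mem_filter.2 ⟨hv, h⟩)
  · intro i u hu h
    exact (mem_filter.1 hu).2 ⟨i, hori i u (mem_filter.1 hu).1 h, h⟩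

theorem hadwiger_coDegree (D : ℕ)
    (hD : ∀ v : V, Nat.card {w : V // w ≠ v ∧ ¬ G.Adj v w} ≤ D)
    (hω : G.cliqueNum + 12 * D * (Nat.sqrt D + 1) < Fintype.card V ∨
      2 ^ 29 * D ^ 4 < (Fintype.card V - G.cliqueNum) ^ 3) :
    ∃ t, G.Colorable t ∧ HasCliqueMinor G t := by
  classical
  have hDH := compl_neighbor_card_le G D hD
  refine hadwiger_of_pairing G fun m x y hm hx hy => ?_
  rcases hω with hω | hω
  · have hm' : 6 * D * (Nat.sqrt D + 1) < m := by
      have : 12 * D * (Nat.sqrt D + 1) = 2 * (6 * D * (Nat.sqrt D + 1)) := by ring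
      omega
    obtain ⟨f, finj, fad, -, fbad⟩ := exists_good Gᶜ x y hDH hx hy hm' univ
    exact ⟨f, fun a b h => finj (mem_univ a) (mem_univ b) h, fun i => fad i (mem_univ i),
      fun i l => fbad i (mem_univ i) l (mem_univ l)⟩
  · have h8 : 2 ^ 26 * D ^ 4 < m ^ 3 := by
      have h1 : (Fintype.card V - G.cliqueNum) ^ 3 ≤ (2 * m) ^ 3 :=
        Nat.pow_le_pow_left (by omega) 3
      have h2 : 8 * (2 ^ 26 * D ^ 4) < 8 * m ^ 3 :=
        calc 8 * (2 ^ 26 * D ^ 4) = 2 ^ 29 * D ^ 4 := by ring
          _ < (2 * m) ^ 3 := hω.trans_le h1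
          _ = 8 * m ^ 3 := by ring
      exact Nat.lt_of_mul_lt_mul_left h2
    rcases Nat.eq_zero_or_pos D with h0 | h0
    · have hm' : 6 * D * (Nat.sqrt D + 1) < m := by
        subst h0
        rcases Nat.eq_zero_or_pos m with rfl | hm0
        · simp at h8
        · simpa using hm0
      obtain ⟨f, finj, fad, -, fbad⟩ := exists_good Gᶜ x y hDH hx hy hm' univ
      exact ⟨f, fun a b h => finj (mem_univ a) (mem_univ b) h, fun i => fad i (mem_univ i),
        fun i l => fbad i (mem_univ i) l (mem_univ l)⟩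
    · obtain ⟨τ, f, finj, fad, -, fbad⟩ := exists_good2 Gᶜ x y hDH h0 hx hy h8.le
      exact ⟨f, fun a b h => finj (mem_univ a) (mem_univ b) h, fun i => fad i (mem_univ i),
        fun i l => fbad i (mem_univ i) l (mem_univ l)⟩

/-- Without dominating vertices, a large clique leaves many vertices outside it. -/
theorem card_le_mul_sub_cliqueNum (D : ℕ)
    (hD : ∀ v : V, Nat.card {w : V // w ≠ v ∧ ¬ G.Adj v w} ≤ D)
    (hdom : ∀ v : V, ∃ w, w ≠ v ∧ ¬ G.Adj v w) :
    Fintype.card V ≤ (D + 1) * (Fintype.card V - G.cliqueNum) := by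
  classical
  obtain ⟨C, hC⟩ := G.exists_isNClique_cliqueNum
  have hsub : C ⊆ Cᶜ.biUnion (fun w => univ.filter fun v => v ≠ w ∧ ¬ G.Adj w v) := by
    intro v hv
    obtain ⟨w, hwv, hw⟩ := hdom v
    have hwC : w ∉ C := fun h => hw (hC.isClique hv h hwv.symm)
    simp only [mem_biUnion, mem_compl, mem_filter, mem_univ, true_and]
    exact ⟨w, hwC, hwv.symm, fun h => hw h.symm⟩
  have h1 : C.card ≤ Cᶜ.card * D := by
    refine (card_le_card hsub).trans (card_biUnion_le_card_mul _ _ _ fun w _ => ?_)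
    refine le_of_eq_of_le ?_ (hD w)
    rw [Nat.card_eq_fintype_card, Fintype.card_subtype]
  have h2 : Cᶜ.card = Fintype.card V - G.cliqueNum := by rw [card_compl, hC.card_eq]
  have h3 := card_add_card_compl C
  rw [← h2]
  calc Fintype.card V = C.card + Cᶜ.card := h3.symm
    _ ≤ Cᶜ.card * D + Cᶜ.card := by omega
    _ = (D + 1) * Cᶜ.card := by ring

/-- In a graph of independence number at most two and small co-degree there is a complete minor
on at least half of the vertices. -/
theorem half_minor_of_indepNum_le_two (D : ℕ)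
    (hD : ∀ v : V, Nat.card {w : V // w ≠ v ∧ ¬ G.Adj v w} ≤ D) (hα : G.indepNum ≤ 2)
    (hn : 24 * D * (Nat.sqrt D + 1) < Fintype.card V ∨ 2 ^ 32 * D ^ 4 < Fintype.card V ^ 3) :
    HasCliqueMinor G ((Fintype.card V + 1) / 2) := by
  classical
  by_cases hω : Fintype.card V ≤ 2 * G.cliqueNum
  · obtain ⟨C, hC⟩ := G.exists_isNClique_cliqueNum
    have hminor : HasCliqueMinor G (Fintype.card C) := by
      refine HasCliqueMinor.of_fintype (fun c : C => ({(c : V)} : Set V)) (fun c => by simp)
        (fun c => ?_) (fun a b hab => ?_) (fun a b hab => ?_)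
      · have : Subsingleton ({(c : V)} : Set V) := ⟨fun a b => Subtype.ext (a.2.trans b.2.symm)⟩
        exact ⟨SimpleGraph.Preconnected.of_subsingleton⟩
      · exact Set.disjoint_singleton.2 fun h => hab (Subtype.ext h)
      · exact ⟨a, rfl, b, rfl, hC.isClique a.2 b.2 fun h => hab (Subtype.ext h)⟩
    refine hminor.mono ?_
    rw [Fintype.card_coe, hC.card_eq]
    omega
  · have hcond : G.cliqueNum + 12 * D * (Nat.sqrt D + 1) < Fintype.card V ∨
        2 ^ 29 * D ^ 4 < (Fintype.card V - G.cliqueNum) ^ 3 := by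
      rcases hn with hn | hn
      · have h24 : 24 * D * (Nat.sqrt D + 1) = 2 * (12 * D * (Nat.sqrt D + 1)) := by ring
        exact Or.inl (by omega)
      · refine Or.inr (Nat.lt_of_mul_lt_mul_left (a := 8) ?_)
        calc 8 * (2 ^ 29 * D ^ 4) = 2 ^ 32 * D ^ 4 := by ring
          _ < Fintype.card V ^ 3 := hn
          _ ≤ (2 * (Fintype.card V - G.cliqueNum)) ^ 3 := Nat.pow_le_pow_left (by omega) 3
          _ = 8 * (Fintype.card V - G.cliqueNum) ^ 3 := by ring
    obtain ⟨t, hcol, hminor⟩ := hadwiger_coDegree G D hD hcond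
    obtain ⟨c⟩ := hcol
    have hfib : ∀ i ∈ (univ : Finset (Fin t)), (univ.filter fun v => c v = i).card ≤ 2 := by
      intro i _
      refine le_trans (SimpleGraph.IsIndepSet.card_le_indepNum ?_) hα
      intro a ha b hb _ hab
      simp only [coe_filter, mem_univ, true_and, Set.mem_setOf_eq] at ha hb
      exact c.valid hab (ha.trans hb.symm)
    have h := card_le_mul_card_image_of_maps_to (f := fun v => c v)
      (fun v (_ : v ∈ (univ : Finset V)) => mem_univ (c v)) 2 hfib
    rw [card_univ, card_univ, Fintype.card_fin] at h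
    refine hminor.mono ?_
    omega

end Vale.Agent.P060
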