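import Mathlib

/-!
# P060: basic notion of a complete minor
-/

namespace Vale.Agent.P060

/-- `G` has a `K_t` minor: `t` pairwise disjoint nonempty vertex sets, each inducing a connected
subgraph, with an edge of `G` between any two of them. -/
def HasCliqueMinor {V : Type*} (G : SimpleGraph V) (t : ℕ) : Prop :=
  ∃ B : Fin t → Set V, (∀ i, (B i).Nonempty) ∧ (∀ i, (G.induce (B i)).Connected) ∧
    (∀ i j, i ≠ j → Disjoint (B i) (B j)) ∧
    ∀ i j, i ≠ j → ∃ u ∈ B i, ∃ v ∈ B j, G.Adj u v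

theorem HasCliqueMinor.mono {V : Type*} {G : SimpleGraph V} {s t : ℕ} (h : HasCliqueMinor G t)
    (hst : s ≤ t) : HasCliqueMinor G s := by
  obtain ⟨B, hne, hc, hd, ha⟩ := h
  refine ⟨B ∘ Fin.castLE hst, fun i => hne _, fun i => hc _, fun i j hij => hd _ _ ?_,
    fun i j hij => ha _ _ ?_⟩ <;>
    exact fun h => hij ((Fin.castLE_injective hst) h)

theorem HasCliqueMinor.of_fintype {V ι : Type*} [Fintype ι] {G : SimpleGraph V} (B : ι → Set V)
    (hne : ∀ i, (B i).Nonempty) (hc : ∀ i, (G.induce (B i)).Connected)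
    (hd : ∀ i j, i ≠ j → Disjoint (B i) (B j))
    (ha : ∀ i j, i ≠ j → ∃ u ∈ B i, ∃ v ∈ B j, G.Adj u v) :
    HasCliqueMinor G (Fintype.card ι) := by
  let e := (Fintype.equivFin ι).symm
  exact ⟨B ∘ e, fun i => hne _, fun i => hc _, fun i j hij => hd _ _ (fun h => hij (e.injective h)),
    fun i j hij => ha _ _ (fun h => hij (e.injective h))⟩

end Vale.Agent.P060
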